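import Vale.Agent.P273SW.Defs
import Vale.Agent.P273.H728.CellF

/-!
# P273S, row OVL, part 1: the marks of the point of a cell in its region
-/

noncomputable section

namespace Vale.Agent.P273SO

open Set Sum Vale.Agent.P273 H95 H732
open Vale.Agent.P273.H93 (nc ic ch off len off_le pl0_lt rk0_lt pl0_none pl0_some rk0_some ic_lt
  pl0_eq_inl)
open Vale.Agent.P273.H728 (Cell rg Tc Sc iot cf gv gv_B gv_t rg_n iot_gap lo_some lo_none
  pos_neckc D0 sm)

theorem csq_one : csq 1 = 1 := by simp [csq]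

theorem gk_mul (k : Fin 3) (x : ℂ) : gk 0 k x * (x - ctr k) = gc 0 x := by
  unfold gk gc
  simp only [Pi.zero_apply, zero_div, sub_zero, csq_one, mul_one, Fin.prod_univ_three]
  fin_cases k <;> simp <;> ring

theorem gcw_mul {w : ℂ} (hw : w ≠ 0) : gc 0 w⁻¹ = gcw 0 w * w⁻¹ ^ 3 := by
  unfold gcw gc
  simp only [Pi.zero_apply, zero_div, zero_mul, sub_zero, csq_one, mul_one, Fin.prod_univ_three]
  field_simp

variable {p q : ℕ} (hp : p ≤ q) (hq : q ≤ 6) (σ : Bool → Equiv.Perm (Fin 7)) (e : Bool → Bool)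
  (c : Cell) (ζ : Fin 8 → ℂ)

/-- The region of the cell. -/
abbrev RR : Region := rg (Tc hp hq σ e c)
/-- The point of the region. -/
abbrev PP : (RR hp hq σ e c).Sp := scl _ (iot hp hq σ e c ζ)

theorem gap_val (k : Fin 3) (g : Fin ((RR hp hq σ e c).n k + 1)) :
    (PP hp hq σ e c ζ).1 ⟨k, g⟩ = cw _ ⟨k, g⟩ * gv p q e c ζ k g := by
  rw [PP, scl_apply]
  change cw _ _ * (iot hp hq σ e c ζ).1 _ = _
  rw [iot_gap]

theorem gap_B (k : Fin 3) {r : ℕ} (hr : r ≤ len p q k) (g : Fin ((RR hp hq σ e c).n k + 1))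
    (hg : g.1 = nc e c.lo false k + 2 * r) : (PP hp hq σ e c ζ).1 ⟨k, g⟩ = 0 := by
  rw [gap_val, hg, gv_B e c ζ hr, mul_zero]

theorem eps0 : (RR hp hq σ e c).eps (PP hp hq σ e c ζ) = 0 := by
  funext k
  have hn := rg_n hp hq σ e c k
  exact Finset.prod_eq_zero (i := ⟨nc e c.lo false k + 2 * 0, by
    change _ < (rg (Tc hp hq σ e c)).n k + 1; omega⟩) (Finset.mem_univ _)
    (gap_B hp hq σ e c ζ k (Nat.zero_le _) _ rfl)

theorem XX0 (k : Fin 3) {i : ℕ} (hi : nc e c.lo false k ≤ i) :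
    (RR hp hq σ e c).XX (PP hp hq σ e c ζ) k i = 0 := by
  have hn := rg_n hp hq σ e c k
  refine Finset.prod_eq_zero (i := ⟨nc e c.lo false k + 2 * 0, by
    change _ < (rg (Tc hp hq σ e c)).n k + 1; omega⟩) (Finset.mem_univ _) ?_
  rw [if_pos (show nc e c.lo false k + 2 * 0 ≤ i by omega)]
  exact gap_B hp hq σ e c ζ k (Nat.zero_le _) _ rfl

theorem YY0 (k : Fin 3) {i : ℕ} (hi : i < nc e c.lo false k + 2 * len p q k) :
    (RR hp hq σ e c).YY (PP hp hq σ e c ζ) k i = 0 := by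
  have hn := rg_n hp hq σ e c k
  refine Finset.prod_eq_zero (i := ⟨nc e c.lo false k + 2 * len p q k, by
    change _ < (rg (Tc hp hq σ e c)).n k + 1; omega⟩) (Finset.mem_univ _) ?_
  rw [if_pos hi]
  exact gap_B hp hq σ e c ζ k le_rfl _ rfl

section cluster

variable {x : L} (hx : (σ x.2 x.1).1 < 6)
include hx

theorem pl_cl : (RR hp hq σ e c).pl x = inl (ch p q (σ x.2 x.1)) := pl0_lt hx

theorem rk_cl : (RR hp hq σ e c).rk x = nc e c.lo false (ch p q (σ x.2 x.1)) +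
    2 * ((σ x.2 x.1).1 - off p q (ch p q (σ x.2 x.1))) +
    (if c.bit (Fin.ofNat 6 (σ x.2 x.1).1) = x.2 then 0 else 1) := rk0_lt hx

theorem XX_cl : (RR hp hq σ e c).XX (PP hp hq σ e c ζ) (ch p q (σ x.2 x.1))
    ((RR hp hq σ e c).rk x) = 0 :=
  XX0 hp hq σ e c ζ _ (by rw [rk_cl hp hq σ e c hx]; omega)

theorem YY_cl : (RR hp hq σ e c).YY (PP hp hq σ e c ζ) (ch p q (σ x.2 x.1))
    ((RR hp hq σ e c).rk x) = 0 := by
  have h1 := off_le hp hq hx
  refine YY0 hp hq σ e c ζ _ ?_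
  rw [rk_cl hp hq σ e c hx]
  split_ifs <;> omega

theorem Sc_cl : Sc σ c x = false := by
  unfold Sc
  rw [decide_eq_false_iff_not]
  rintro ⟨h, -⟩
  rw [h] at hx
  exact absurd hx (by decide)

theorem pos_cl : (RR hp hq σ e c).pos (PP hp hq σ e c ζ) x = ctr (ch p q (σ x.2 x.1)) := by
  rw [pos_neck _ _ (pl_cl hp hq σ e c hx), XX_cl hp hq σ e c ζ hx, YY_cl hp hq σ e c ζ hx]
  ring

theorem sht_cl : (RR hp hq σ e c).sht (Sc σ c) (PP hp hq σ e c ζ) x = 0 := by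
  rw [sht_neck _ _ _ (pl_cl hp hq σ e c hx), XX_cl hp hq σ e c ζ hx, YY_cl hp hq σ e c ζ hx]
  ring

end cluster

/-- The sheet of a core mark in a neck. -/
theorem sht_nk {x : L} {k : Fin 3} (hx : ¬ (σ x.2 x.1).1 < 6) (h : c.loc x.2 = inr k) :
    (RR hp hq σ e c).sht (Sc σ c) (PP hp hq σ e c ζ) x =
      (if e x.2 then -1 else 1) * gc 0 (H728.xx e c x.2 ζ) := by
  have h1 : c.lo x.2 = some k := (lo_some c).2 h
  have hpl : (RR hp hq σ e c).pl x = inl k := pl0_some hx h1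
  have hrk : (RR hp hq σ e c).rk x = (if e x.2 = true then
      nc e c.lo false k + 2 * len p q k else 0) + ic e c.lo (c.oo e) x.2 := rk0_some hx h1
  have hic := ic_lt (e := e) (o := c.oo e) h1
  have hpos := pos_neckc hp hq σ e c ζ hx h
  have h2 := pos_neck _ (PP hp hq σ e c ζ) hpl
  rw [sht_neck _ _ _ hpl, eps0, hpos, ← gk_mul k]
  rw [hpos] at h2
  rcases he : e x.2 with _ | _
  · rw [he] at hic hrk
    have h3 := YY0 hp hq σ e c ζ k (i := (RR hp hq σ e c).rk x) (by rw [hrk]; simp; omega)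
    rw [h3] at h2 ⊢
    rw [h2]
    simp only [Bool.false_eq_true, if_false]
    ring
  · rw [he] at hrk
    have h3 := XX0 hp hq σ e c ζ k (i := (RR hp hq σ e c).rk x) (by rw [hrk]; simp; omega)
    rw [h3] at h2 ⊢
    rw [h2]
    simp only [if_true]
    ring

theorem not_mu {b z : Bool} (h : c.loc b = inl z) : ¬ H728.mu e c b := by
  intro hm
  have h2 := hm.1.2
  cases b
  · rw [h] at h2
    rw [h2.1] at h2
    exact absurd h2.2 (by simp)
  · rw [h] at h2
    exact absurd h2.2 (by simp)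

/-- The core marks. -/
theorem same_core {x : L} (hx : ¬ (σ x.2 x.1).1 < 6) (h0 : ζ (cf x.2) ≠ 0) :
    Same (Sc σ c x) ((RR hp hq σ e c).pos (PP hp hq σ e c ζ) x)
      ((RR hp hq σ e c).sht (Sc σ c) (PP hp hq σ e c ζ) x) false (H728.xx e c x.2 ζ)
      ((if e x.2 then -1 else 1) * gc 0 (H728.xx e c x.2 ζ)) := by
  have h6 : σ x.2 x.1 = 6 := Fin.ext (by change (σ x.2 x.1).1 = 6; omega)
  have hS : ∀ {l}, c.loc x.2 = l → l ≠ inl true → Sc σ c x = false := by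
    intro l h hl
    unfold Sc
    rw [decide_eq_false_iff_not]
    rintro ⟨-, h3⟩
    exact hl (h.symm.trans h3)
  rcases h : c.loc x.2 with z | k
  · have h1 : c.lo x.2 = none := (lo_none c).2 ⟨z, h⟩
    have hpl : (RR hp hq σ e c).pl x = inr (e x.2) := pl0_none hx h1
    have hpos : (RR hp hq σ e c).pos (PP hp hq σ e c ζ) x = ζ (cf x.2) := by
      rw [pos_core _ _ hpl, PP, scl_apply]
      rfl
    rw [sht_core _ _ _ hpl, eps0, hpos]
    rcases z with _ | _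
    · have hxx : H728.xx e c x.2 ζ = ζ (cf x.2) := by
        unfold H728.xx
        rw [if_neg (not_mu e c h), h]
        rfl
      rw [hS h (by simp), hxx, Same, if_pos rfl]
      exact ⟨rfl, by simp⟩
    · have hxx : H728.xx e c x.2 ζ = (ζ (cf x.2))⁻¹ := by
        unfold H728.xx
        rw [if_neg (not_mu e c h), h]
        rfl
      have hS' : Sc σ c x = true := by
        unfold Sc
        rw [decide_eq_true_eq]
        exact ⟨h6, h⟩
      rw [hS', hxx, Same, if_neg (by simp)]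
      refine ⟨mul_inv_cancel₀ h0, ?_⟩
      rw [gcw_mul h0]
      simp only [if_true]
      ring
  · rw [hS h (by simp), Same, if_pos rfl]
    exact ⟨pos_neckc hp hq σ e c ζ hx h, sht_nk hp hq σ e c ζ hx h⟩

/-- A mark at a node is in a cluster. -/
theorem node_cl (hc : ∀ b k, H728.xx e c b ζ ≠ ctr k) {x : L} {k : Fin 3}
    (hk : (RR hp hq σ e c).pl x = inl k)
    (hX : (RR hp hq σ e c).XX (PP hp hq σ e c ζ) k ((RR hp hq σ e c).rk x) = 0)
    (hY : (RR hp hq σ e c).YY (PP hp hq σ e c ζ) k ((RR hp hq σ e c).rk x) = 0) :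
    (σ x.2 x.1).1 < 6 ∧ ch p q (σ x.2 x.1) = k := by
  rcases pl0_eq_inl (show H93.pl0 p q e c.lo (σ x.2 x.1) x.2 = inl k from hk) with h | ⟨hx, h⟩
  · exact h
  · exfalso
    have h1 := pos_neckc hp hq σ e c ζ hx ((lo_some c).1 h)
    rw [pos_neck _ _ hk] at h1
    change ctr k + ((RR hp hq σ e c).XX (PP hp hq σ e c ζ) k ((RR hp hq σ e c).rk x) +
      (RR hp hq σ e c).YY (PP hp hq σ e c ζ) k ((RR hp hq σ e c).rk x)) / 2 = _ at h1
    rw [hX, hY] at h1
    exact hc x.2 k (by rw [← h1]; ring)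

/-- Different clusters of one chain. -/
theorem mu_lt {i j : L} (hi : (σ i.2 i.1).1 < 6) (hj : (σ j.2 j.1).1 < 6)
    (hk : ch p q (σ i.2 i.1) = ch p q (σ j.2 j.1)) (hij : (σ i.2 i.1).1 < (σ j.2 j.1).1) :
    (RR hp hq σ e c).rk i < (RR hp hq σ e c).rk j ∧
      H724.mu (RR hp hq σ e c) (PP hp hq σ e c ζ) i j = 0 := by
  have h1 := off_le hp hq hi
  have h2 := off_le hp hq hj
  have h3 := rk_cl hp hq σ e c hi
  have h4 := rk_cl hp hq σ e c hj
  have hn := rg_n hp hq σ e c (ch p q (σ i.2 i.1))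
  rw [← hk] at h2 h4
  refine ⟨by rw [h3, h4]; split_ifs <;> omega, ?_⟩
  rw [H724.mu_eq _ (pl_cl hp hq σ e c hi)]
  refine Finset.prod_eq_zero (i := ⟨nc e c.lo false (ch p q (σ i.2 i.1)) +
    2 * ((σ j.2 j.1).1 - off p q (ch p q (σ i.2 i.1))), by
    change _ < (rg (Tc hp hq σ e c)).n _ + 1; omega⟩) (Finset.mem_univ _) ?_
  rw [if_pos]
  · exact gap_B hp hq σ e c ζ _ (r := (σ j.2 j.1).1 - off p q (ch p q (σ i.2 i.1))) (by omega) _ rfl
  · rw [h3, h4]
    constructor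
    · change _ < nc e c.lo false (ch p q (σ i.2 i.1)) +
        2 * ((σ j.2 j.1).1 - off p q (ch p q (σ i.2 i.1)))
      split_ifs <;> omega
    · change nc e c.lo false (ch p q (σ i.2 i.1)) +
        2 * ((σ j.2 j.1).1 - off p q (ch p q (σ i.2 i.1))) ≤ _
      omega

/-- The two marks of one cluster. -/
theorem mu_eq {i j : L} (hi : (σ i.2 i.1).1 < 6) (hij : σ j.2 j.1 = σ i.2 i.1)
    (hb : c.bit (Fin.ofNat 6 (σ i.2 i.1).1) = i.2) (hb' : c.bit (Fin.ofNat 6 (σ i.2 i.1).1) ≠ j.2) :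
    (RR hp hq σ e c).rk i < (RR hp hq σ e c).rk j ∧
      H724.mu (RR hp hq σ e c) (PP hp hq σ e c ζ) i j = ζ (Fin.ofNat 8 (σ i.2 i.1).1) := by
  have h1 := off_le hp hq hi
  have h3 := rk_cl hp hq σ e c hi
  have h4 := rk_cl hp hq σ e c (x := j) (by rw [hij]; exact hi)
  have hn := rg_n hp hq σ e c (ch p q (σ i.2 i.1))
  rw [hij, if_neg hb'] at h4
  rw [if_pos hb] at h3
  refine ⟨by rw [h3, h4]; omega, ?_⟩
  rw [H724.mu_eq _ (pl_cl hp hq σ e c hi), Finset.prod_eq_single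
    (⟨nc e c.lo false (ch p q (σ i.2 i.1)) +
      2 * ((σ i.2 i.1).1 - off p q (ch p q (σ i.2 i.1))) + 1, by
      change _ < (rg (Tc hp hq σ e c)).n _ + 1; omega⟩ :
        Fin ((RR hp hq σ e c).n (ch p q (σ i.2 i.1)) + 1))]
  · rw [if_pos ⟨by rw [h3]; exact Nat.lt_succ_self _, by rw [h4]⟩, gap_val, gv_t e c ζ hi hp hq]
    unfold cw
    rw [if_neg, if_neg]
    · ring
    · change ¬ (nc e c.lo false (ch p q (σ i.2 i.1)) +
        2 * ((σ i.2 i.1).1 - off p q (ch p q (σ i.2 i.1))) + 1 =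
          (rg (Tc hp hq σ e c)).n (ch p q (σ i.2 i.1)))
      omega
    · change ¬ (nc e c.lo false (ch p q (σ i.2 i.1)) +
        2 * ((σ i.2 i.1).1 - off p q (ch p q (σ i.2 i.1))) + 1 = 0)
      omega
  · intro g _ hg
    refine if_neg ?_
    rintro ⟨h5, h6⟩
    apply hg
    apply Fin.ext
    change g.1 = nc e c.lo false (ch p q (σ i.2 i.1)) +
      2 * ((σ i.2 i.1).1 - off p q (ch p q (σ i.2 i.1))) + 1
    omega
  · intro h
    exact absurd (Finset.mem_univ _) h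

end Vale.Agent.P273SO

end
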