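import Vale.Agent.P273SO.Val
import Vale.Agent.P273SN.Rows

/-!
# P273S, row OVL
-/

noncomputable section

namespace Vale.Agent.P273SO

open Set Vale.Agent.P273 Vale.Agent.P273SW
open Vale.Agent.P273.H728 (Cell D0 sm)

theorem gen_xx {e : Bool → Bool} {c : Cell} {ζ : Fin 8 → ℂ} (h : ζ ∈ P273SN.Gen (sm e) c)
    (b : Bool) (k : Fin 3) : H728.xx e c b ζ ≠ H95.ctr k := by
  cases b
  · rw [← H728.xB_eq]; exact h.2.2.1 k
  · rw [← H728.xA_eq]; exact h.2.1 k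

/-- **OVL** -/
theorem ovl (hE : EGS) (hR : PR) (hV : PV) : P273SN.OVL :=
  fun _ _ hp hq σ e c c' ζ ζ' h h' hd hd' hk =>
    ovl0 hp hq σ e c ζ hE hR hV c' ζ' h.1 h'.1 (gen_xx h) (gen_xx h') hd hd' hk

end Vale.Agent.P273SO

end
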