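import Vale.Agent.P273SO.Mark

/-!
# P273S, row OVL, part 2: the value of the embedding on a cell depends only on the point of the base
-/

noncomputable section

namespace Vale.Agent.P273SO

open Set Sum Vale.Agent.P273 H95 H732 Vale.Agent.P273SW
open Vale.Agent.P273.H93 (ch)
open Vale.Agent.P273.H728 (Cell rg Tc Sc iot cf D0 sm)
open scoped ComplexConjugate

theorem pr1_mul {a : ℂ} (ha : a ≠ 0) (u v : ℂ) : pr1 (a * u, a * v) = pr1 (u, v) := by
  have h1 : a * conj a ≠ 0 := mul_ne_zero ha (by simpa using ha)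
  have h2 : n2 (a * u, a * v) = a * conj a * n2 (u, v) := by
    simp only [n2, map_mul]; ring
  have h3 : q2 (a * u, a * v) = (a * conj a) • q2 (u, v) := by
    simp only [q2, map_mul, Prod.smul_mk, smul_eq_mul]
    refine Prod.ext ?_ (Prod.ext ?_ ?_) <;> simp only <;> ring
  rw [pr1, h2, h3, smul_smul, pr1]
  congr 1
  rw [mul_inv, mul_assoc, mul_comm (n2 (u, v))⁻¹, ← mul_assoc, inv_mul_cancel₀ h1, one_mul]

variable {p q : ℕ} (hp : p ≤ q) (hq : q ≤ 6) (σ : Bool → Equiv.Perm (Fin 7)) (e : Bool → Bool)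

/-- The canonical positions. -/
def z0 (p q : ℕ) (σ : Bool → Equiv.Perm (Fin 7)) (y : Bool → ℂ) (x : L) : ℂ :=
  if (σ x.2 x.1).1 < 6 then ctr (ch p q (σ x.2 x.1)) else y x.2

/-- The canonical sheets. -/
def v0 (σ : Bool → Equiv.Perm (Fin 7)) (e : Bool → Bool) (y : Bool → ℂ) (x : L) : ℂ :=
  if (σ x.2 x.1).1 < 6 then 0 else (if e x.2 then -1 else 1) * gc 0 (y x.2)

/-- The canonical point without the slopes at the nodes. -/
def G0 (p q : ℕ) (σ : Bool → Equiv.Perm (Fin 7)) (e : Bool → Bool) (y : Bool → ℂ) : Amb :=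
  eG (fun _ => false) (thA 0, z0 p q σ y) (v0 σ e y)

/-- The cross ratio of two marks of a chain. -/
def m0 (σ : Bool → Equiv.Perm (Fin 7)) (b : Fin 8 → ℂ) (i j : L) : ℂ :=
  if σ i.2 i.1 = σ j.2 j.1 then b (Fin.ofNat 8 (σ i.2 i.1).1) else 0

/-- The sign. -/
def s0 (σ : Bool → Equiv.Perm (Fin 7)) (i j : L) : ℂ :=
  if σ i.2 i.1 = σ j.2 j.1 then (if i.2 then 1 else -1)
  else if (σ i.2 i.1).1 < (σ j.2 j.1).1 then 1 else -1

/-- Two different marks at one node. -/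
def Nd (p q : ℕ) (σ : Bool → Equiv.Perm (Fin 7)) (i j : L) : Prop :=
  i ≠ j ∧ (σ i.2 i.1).1 < 6 ∧ (σ j.2 j.1).1 < 6 ∧ ch p q (σ i.2 i.1) = ch p q (σ j.2 j.1)

open Classical in
/-- The canonical point. -/
def can (p q : ℕ) (σ : Bool → Equiv.Perm (Fin 7)) (e : Bool → Bool) (y : Bool → ℂ)
    (b : Fin 8 → ℂ) : Amb :=
  ((G0 p q σ e y).1, (G0 p q σ e y).2.1, fun i j => if Nd p q σ i j then
    (cut (G0 p q σ e y).1 ((G0 p q σ e y).2.1 i) * cut (G0 p q σ e y).1 ((G0 p q σ e y).2.1 j)) •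
      pr1 (gk 0 (ch p q (σ i.2 i.1)) (ctr (ch p q (σ i.2 i.1))) * (1 + m0 σ b i j),
        s0 σ i j * (1 - m0 σ b i j))
    else (G0 p q σ e y).2.2 i j)

variable (c : Cell) (ζ : Fin 8 → ℂ)

theorem eG_cell (hE : EGS) (h0 : ∀ j, ζ j ≠ 0) :
    eG (Sc σ c) ((RR hp hq σ e c).psi (PP hp hq σ e c ζ))
      ((RR hp hq σ e c).sht (Sc σ c) (PP hp hq σ e c ζ)) =
      G0 p q σ e fun b => H728.xx e c b ζ := by
  refine hE _ _ _ _ _ _ ?_ fun x => ?_
  · change thA _ = thA 0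
    rw [eps0]
  · change Same (Sc σ c x) ((RR hp hq σ e c).pos (PP hp hq σ e c ζ) x) _ false
      (z0 p q σ (fun b => H728.xx e c b ζ) x) (v0 σ e (fun b => H728.xx e c b ζ) x)
    unfold z0 v0
    by_cases hx : (σ x.2 x.1).1 < 6
    · rw [if_pos hx, if_pos hx, Sc_cl σ c hx, pos_cl hp hq σ e c ζ hx, sht_cl hp hq σ e c ζ hx,
        Same, if_pos rfl]
      exact ⟨rfl, rfl⟩
    · rw [if_neg hx, if_neg hx]
      exact same_core hp hq σ e c ζ hx (h0 _)

/-- The slope of two marks at a node. -/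
theorem slope (hV : PV) (h0 : ∀ j, ζ j ≠ 0)
    (hd : PP hp hq σ e c ζ ∈ (RR hp hq σ e c).dom (Sc σ c)) {i j : L} (h : Nd p q σ i j) :
    (eR (RR hp hq σ e c) (Sc σ c) (PP hp hq σ e c ζ)).2.2 i j =
      cc (Sc σ c) ((RR hp hq σ e c).psi (PP hp hq σ e c ζ))
        ((RR hp hq σ e c).sht (Sc σ c) (PP hp hq σ e c ζ)) i j •
      pr1 (gk 0 (ch p q (σ i.2 i.1)) (ctr (ch p q (σ i.2 i.1))) *
        (1 + m0 σ (D0.kap (sm e) c ζ) i j), s0 σ i j * (1 - m0 σ (D0.kap (sm e) c ζ) i j)) := by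
  obtain ⟨hij, hi, hj, hk⟩ := h
  have hF : H888.Far (RR hp hq σ e c) (Sc σ c) := H720.farOk hp hq σ e c
  have pi := pl_cl hp hq σ e c hi
  have pj := pl_cl hp hq σ e c hj
  have xi := XX_cl hp hq σ e c ζ hi
  have xj := XX_cl hp hq σ e c ζ hj
  have yi := YY_cl hp hq σ e c ζ hi
  have yj := YY_cl hp hq σ e c ζ hj
  rw [← hk] at pj xj yj
  have A := fun hr => ((hV _ _ hF _ hd i j).2 _ pi pj hr xi yj).1
  have B := fun hr => ((hV _ _ hF _ hd j i).2 _ pj pi hr xj yi).2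
  rw [eps0] at A B
  unfold m0 s0
  rcases lt_trichotomy (σ i.2 i.1).1 (σ j.2 j.1).1 with hlt | heq | hlt
  · obtain ⟨h1, h2⟩ := mu_lt hp hq σ e c ζ hi hj hk hlt
    have hne : σ i.2 i.1 ≠ σ j.2 j.1 := fun h => by rw [h] at hlt; exact lt_irrefl _ hlt
    rw [A h1, h2, if_neg hne, if_neg hne, if_pos hlt, one_mul]
  · have heq' : σ i.2 i.1 = σ j.2 j.1 := Fin.ext heq
    have hty : i.2 ≠ j.2 := by
      intro h
      apply hij
      rw [h] at heq'
      exact Prod.ext ((σ j.2).injective heq') h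
    have hkap := H728.TD.kap_lt (D := D0) (s := sm e) (c := c) ζ (H728.ofNat8_eq hi)
    rw [H728.ofNat6_eq hi] at hkap
    have hz := h0 (Fin.ofNat 8 (σ i.2 i.1).1)
    rw [if_pos heq', if_pos heq', hkap]
    by_cases hb : c.bit (Fin.ofNat 6 (σ i.2 i.1).1) = i.2
    · obtain ⟨h1, h2⟩ := mu_eq hp hq σ e c ζ hi heq'.symm hb (by rw [hb]; exact hty)
      rw [A h1, h2, hb]
      rcases hi2 : i.2 with _ | _
      · rw [hi2] at hz
        simp only [Bool.false_eq_true, if_false]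
        rw [← pr1_mul (inv_ne_zero hz)]
        congr 2
        refine Prod.ext ?_ ?_ <;> simp only <;> field_simp <;> ring
      · simp only [if_true, one_mul]
    · have hb2 : c.bit (Fin.ofNat 6 (σ j.2 j.1).1) = j.2 := by
        rw [← heq']
        revert hb hty
        cases c.bit (Fin.ofNat 6 (σ i.2 i.1).1) <;> cases i.2 <;> cases j.2 <;> simp
      obtain ⟨h1, h2⟩ := mu_eq hp hq σ e c ζ hj heq' hb2 (by rw [← heq']; exact hb)
      rw [B h1, h2, ← heq']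
      rcases hi2 : i.2 with _ | _
      · have hb3 : c.bit (Fin.ofNat 6 (σ i.2 i.1).1) = true := by
          rw [hi2] at hb
          rw [hi2]
          simpa using hb
        rw [hi2] at hb3
        simp only [hb3, Bool.false_eq_true, if_false, if_true, neg_mul, one_mul]
      · have hb3 : c.bit (Fin.ofNat 6 (σ i.2 i.1).1) = false := by
          rw [hi2] at hb
          rw [hi2]
          simpa using hb
        rw [hi2] at hb3 hz
        simp only [hb3, Bool.false_eq_true, if_false, if_true, one_mul]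
        rw [← pr1_mul (inv_ne_zero hz)]
        congr 2
        refine Prod.ext ?_ ?_ <;> simp only <;> field_simp <;> ring
  · obtain ⟨h1, h2⟩ := mu_lt hp hq σ e c ζ hj hi hk.symm hlt
    have hne : σ i.2 i.1 ≠ σ j.2 j.1 := fun h => by rw [h] at hlt; exact lt_irrefl _ hlt
    rw [B h1, h2, if_neg hne, if_neg hne, if_neg (by omega), neg_mul, one_mul]

/-- **The value of the embedding on a cell.** -/
theorem eR_cell (hE : EGS) (hR : PR) (hV : PV) (h0 : ∀ j, ζ j ≠ 0)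
    (hc : ∀ b k, H728.xx e c b ζ ≠ ctr k)
    (hd : PP hp hq σ e c ζ ∈ (RR hp hq σ e c).dom (Sc σ c)) :
    eR (RR hp hq σ e c) (Sc σ c) (PP hp hq σ e c ζ) =
      can p q σ e (fun b => H728.xx e c b ζ) (D0.kap (sm e) c ζ) := by
  have hF : H888.Far (RR hp hq σ e c) (Sc σ c) := H720.farOk hp hq σ e c
  have hX := (hR _ _ hF).1
  have hG := eG_cell hp hq σ e c ζ hE h0
  unfold can
  rw [← hG]
  refine Prod.ext (hX.fst _ hd) (Prod.ext (funext fun j => hX.pos _ hd j) ?_)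
  funext i j
  by_cases h : Nd p q σ i j
  · simp only [if_pos h]
    exact slope hp hq σ e c ζ hV h0 hd h
  · simp only [if_neg h]
    refine (hV _ _ hF _ hd i j).1 ?_
    by_cases hij : i = j
    · exact Or.inr hij
    · refine Or.inl ?_
      rintro ⟨k, h1, h2, h3, h4, h5, h6⟩
      obtain ⟨h7, h8⟩ := node_cl hp hq σ e c ζ hc h1 h3 h4
      obtain ⟨h9, h10⟩ := node_cl hp hq σ e c ζ hc h2 h5 h6
      exact h ⟨hij, h7, h9, h8.trans h10.symm⟩

theorem kap_cf (b : Bool) : D0.kap (sm e) c ζ (cf b) = D0.M (H728.xx e c b ζ) := by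
  cases b
  · rw [← H728.xB_eq]; exact H728.TD.kap_seven ζ
  · rw [← H728.xA_eq]; exact H728.TD.kap_six ζ

/-- **Overlaps.** -/
theorem ovl0 (hE : EGS) (hR : PR) (hV : PV) (c' : Cell) (ζ' : Fin 8 → ℂ) (h0 : ∀ j, ζ j ≠ 0)
    (h0' : ∀ j, ζ' j ≠ 0) (hc : ∀ b k, H728.xx e c b ζ ≠ ctr k)
    (hc' : ∀ b k, H728.xx e c' b ζ' ≠ ctr k)
    (hd : PP hp hq σ e c ζ ∈ (RR hp hq σ e c).dom (Sc σ c))
    (hd' : PP hp hq σ e c' ζ' ∈ (RR hp hq σ e c').dom (Sc σ c'))
    (h : D0.kap (sm e) c ζ = D0.kap (sm e) c' ζ') :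
    eR (RR hp hq σ e c) (Sc σ c) (PP hp hq σ e c ζ) =
      eR (RR hp hq σ e c') (Sc σ c') (PP hp hq σ e c' ζ') := by
  rw [eR_cell hp hq σ e c ζ hE hR hV h0 hc hd, eR_cell hp hq σ e c' ζ' hE hR hV h0' hc' hd', h]
  congr 1
  funext b
  refine D0.M_inj (hc b 2) (hc' b 2) ?_
  rw [← kap_cf, ← kap_cf, h]

end Vale.Agent.P273SO

end
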